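import Vale.Agent.P063.MaxWidth
import Vale.Agent.P063.H868.Defs
import Mathlib.Probability.Independence.Basic
import Mathlib.Probability.Distributions.Bernoulli
import Mathlib.Probability.Combinatorics.BinomialRandomGraph.Defs

/-!
# P063: the random hypergraph, critical probabilities, widths, largest widths
-/

set_option autoImplicit false

namespace Vale.Agent.P063R

open MeasureTheory ProbabilityTheory Vale.Agent.P063

/-- `X` is a random `r`-uniform hypergraph on `[n]`, defined on the probability space `(Ω, ν)`, in
which the edges are present independently, each with probability `p`. -/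
def IsRandom {n r : ℕ} {Ω : Type*} [MeasurableSpace Ω] (ν : Measure Ω) (p : ℝ)
    (X : Ω → Edge n r → Bool) : Prop :=
  IsProbabilityMeasure ν ∧ (∀ e, Measurable fun ω => X ω e) ∧ iIndepFun (fun e ω => X ω e) ν ∧
    ∀ e, ν.real {ω | X ω e = true} = p

/-- The product over all `r`-sets of the Bernoulli law with parameter `p`. -/
noncomputable def law (n r : ℕ) (p : unitInterval) : Measure (Edge n r → Bool) :=
  Measure.pi fun _ => bernoulliMeasure true false p

/-- `μ_p(P)` for a family `P` of `r`-uniform hypergraphs. -/
noncomputable def muH {n r : ℕ} (P : Set (Edge n r → Bool)) (p : unitInterval) : ℝ :=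
  (law n r p).real P

/-- `μ_p(P)` for a family `P` of simple graphs: its probability under `G(n, p)`. -/
noncomputable def muG {n : ℕ} (P : Set (SimpleGraph (Fin n))) (p : unitInterval) : ℝ :=
  (SimpleGraph.binomialRandom (Fin n) p).real P

/-- For `g p = μ_p(P)` this is `p_a(P) = inf {p ∈ [0,1] : μ_p(P) ≥ a}`. -/
noncomputable def pc (g : unitInterval → ℝ) (a : ℝ) : ℝ :=
  sInf (Subtype.val '' {p : unitInterval | a ≤ g p})

/-- For `g p = μ_p(P)` this is the threshold width `w_ε(P) = p_{1-ε}(P) - p_ε(P)`. -/
noncomputable def wd (g : unitInterval → ℝ) (ε : ℝ) : ℝ := pc g (1 - ε) - pc g ε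

/-- The widths `w_ε(P)` of the nontrivial increasing `r`-uniform hypergraph properties on `[n]`. -/
def widthsH (r n : ℕ) (ε : ℝ) : Set ℝ :=
  {w | ∃ P : Set (Edge n r → Bool), Admissible P ∧ wd (muH P) ε = w}

/-- The widths `w_ε(P)` of the nontrivial increasing graph properties on `[n]`. -/
def widthsG (n : ℕ) (ε : ℝ) : Set ℝ :=
  {w | ∃ P : Set (SimpleGraph (Fin n)), H868.GraphProperty P ∧ wd (muG P) ε = w}

/-- `W_ε(n)`, the largest width. -/
noncomputable def W (r n : ℕ) (ε : ℝ) : ℝ := sSup (widthsH r n ε)

end Vale.Agent.P063R
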