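import Vale.Agent.P063R21.Defs
import Vale.Agent.P063.H868.Graph
import Vale.Agent.P063.H601.Up
import Vale.Agent.Results.P063.UniformWidth

/-!
# P063: the measures are the finite sums of the earlier files
-/

set_option autoImplicit false

namespace Vale.Agent.P063R

open MeasureTheory ProbabilityTheory Vale.Agent.P063

lemma real_eq_sum {α : Type} [Fintype α] [MeasurableSpace α] [MeasurableSingletonClass α]
    (m : Measure α) [IsFiniteMeasure m] (P : Set α) [DecidablePred (· ∈ P)] :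
    m.real P = ∑ x, if x ∈ P then m.real {x} else 0 := by
  rw [← Finset.sum_filter, sum_measureReal_singleton]
  congr 1
  ext x
  simp

variable {n r : ℕ}

lemma law_prob (p : unitInterval) : IsProbabilityMeasure (law n r p) := by
  unfold law
  infer_instance

lemma muH_eq (P : Set (Edge n r → Bool)) (p : unitInterval) : muH P p = mu p P := by
  classical
  have := law_prob (n := n) (r := r) p
  unfold muH mu
  rw [real_eq_sum]
  refine Finset.sum_congr rfl fun x _ => ?_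
  congr 1
  unfold law
  rw [measureReal_def, Measure.pi_singleton, ENNReal.toReal_prod]
  refine Finset.prod_congr rfl fun e _ => ?_
  rw [← measureReal_def, bernoulliMeasure_real_apply p (measurableSet_singleton _)]
  cases x e <;> simp

lemma muG_eq (P : Set (SimpleGraph (Fin n))) (p : unitInterval) :
    muG P p = H868.graphProb P p := by
  classical
  have : MeasurableSingletonClass (SimpleGraph (Fin n)) := by
    refine ⟨fun G => ?_⟩
    have h : ({G} : Set (SimpleGraph (Fin n))) = SimpleGraph.edgeSet ⁻¹' {G.edgeSet} := by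
      ext H
      simp
    rw [h]
    exact SimpleGraph.measurableEmbedding_edgeSet.measurable (measurableSet_singleton _)
  unfold muG H868.graphProb
  rw [real_eq_sum]
  refine Finset.sum_congr (by congr) fun G _ => ?_
  congr 1
  rw [measureReal_def, SimpleGraph.binomialRandom_singleton]
  simp

lemma pc_eq {g : unitInterval → ℝ} {f : ℝ → ℝ} (h : ∀ p, g p = f p) (a : ℝ) :
    pc g a = sInf {p : ℝ | 0 ≤ p ∧ p ≤ 1 ∧ a ≤ f p} := by
  unfold pc
  congr 1
  ext p
  constructor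
  · rintro ⟨q, hq, rfl⟩
    exact ⟨q.2.1, q.2.2, (h q) ▸ hq⟩
  · rintro ⟨h0, h1, h2⟩
    refine ⟨⟨p, h0, h1⟩, ?_, rfl⟩
    change a ≤ g ⟨p, h0, h1⟩
    rw [h]
    exact h2

lemma pcH (P : Set (Edge n r → Bool)) (a : ℝ) : pc (muH P) a = critProb a P :=
  pc_eq (f := fun p => mu p P) (muH_eq P) a

lemma wdH (P : Set (Edge n r → Bool)) (ε : ℝ) : wd (muH P) ε = width ε P := by
  unfold wd width
  rw [pcH, pcH]

lemma wdG (P : Set (SimpleGraph (Fin n))) (ε : ℝ) :
    wd (muG P) ε = H868.width ε (H868.graphProb P) := by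
  unfold wd H868.width H868.crit
  rw [pc_eq (muG_eq P), pc_eq (muG_eq P)]

lemma widths_eq (n : ℕ) (ε : ℝ) : widthsG n ε = widthsH 2 n ε := by
  ext w
  constructor
  · rintro ⟨P, hP, rfl⟩
    obtain ⟨h1, h2, h3, h4⟩ := H868.graph_to_hyper hP
    refine ⟨_, ⟨H868.bits_property h1, H868.bits_upper h2, H868.bits_nonempty h3,
      H868.bits_ne_univ h4⟩, ?_⟩
    rw [wdH, wdG, H868.width_bits, H868.graphProb_eq]
  · rintro ⟨Q, ⟨h1, h2, h3, h4⟩, rfl⟩
    refine ⟨_, H868.hyper_to_graph (Q := H868.sets Q) ⟨fun s H hH => H868.sets_inv h1 s H hH,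
      H868.sets_upper h2, H868.sets_nonempty h3, H868.sets_ne_univ h4⟩, ?_⟩
    rw [wdH, wdG, H868.graphProb_from, ← H868.width_bits, H868.bits_sets]

lemma exists_adm (h : r ≤ n) : ∃ P : Set (Edge n r → Bool), Admissible P := by
  obtain ⟨s, -, hs⟩ := Finset.exists_subset_card_eq (s := (Finset.univ : Finset (Fin n)))
    (n := r) (by simpa using h)
  refine ⟨{x | ∀ e, x e = true}, ?_, ?_, ⟨fun _ => true, fun _ => rfl⟩, ?_⟩
  · intro σ x
    refine ⟨fun hx e => ?_, fun hx e => hx _⟩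
    have h1 : permEdge σ (permEdge σ.symm e) = e := by
      apply Subtype.ext
      ext a
      simp only [permEdge, Finset.mem_map_equiv, Finset.mem_map_mk]
    have h2 := hx (permEdge σ.symm e)
    simp only [h1] at h2
    exact h2
  · intro x y hxy hx e
    have h1 := hxy e
    rw [hx e] at h1
    exact top_le_iff.1 h1
  · intro hu
    have h1 : (fun _ => false) ∈ {x : Edge n r → Bool | ∀ e, x e = true} := by
      rw [hu]; trivial
    exact absurd (h1 ⟨s, hs⟩) (by simp)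

lemma greatest (h : r ≤ n) (ε : ℝ) : IsGreatest (widthsH r n ε) (W r n ε) := by
  have hf : (widthsH r n ε).Finite :=
    (Set.finite_range fun P : Set (Edge n r → Bool) => wd (muH P) ε).subset
      fun _ ⟨P, _, hP⟩ => ⟨P, hP⟩
  obtain ⟨P, hP⟩ := exists_adm h
  have hne : (widthsH r n ε).Nonempty := ⟨_, P, hP, rfl⟩
  exact ⟨hne.csSup_mem hf, fun _ hw => le_csSup hf.bddAbove hw⟩

lemma isRandom_law (p : unitInterval) : IsRandom (law n r p) p fun x => x := by
  refine ⟨law_prob p, fun e => measurable_pi_apply e, ?_, fun e => ?_⟩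
  · exact iIndepFun_pi (μ := fun _ : Edge n r => bernoulliMeasure true false p)
      (X := fun _ b => b) fun _ => aemeasurable_id
  · have h := (measurePreserving_eval (fun _ : Edge n r => bernoulliMeasure true false p)
      e).measureReal_preimage (measurableSet_singleton true).nullMeasurableSet
    rw [bernoulliMeasure_real_apply p (measurableSet_singleton _)] at h
    exact h.trans (by simp)

lemma map_eq {Ω : Type*} [MeasurableSpace Ω] {ν : Measure Ω} {p : unitInterval}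
    {X : Ω → Edge n r → Bool} (h : IsRandom ν p X) : ν.map X = law n r p := by
  obtain ⟨h0, h1, h2, h3⟩ := h
  have h4 := (iIndepFun_iff_map_fun_eq_pi_map fun e => (h1 e).aemeasurable).1 h2
  refine h4.trans ?_
  unfold law
  congr 1
  funext e
  have : IsProbabilityMeasure (ν.map fun ω => X ω e) :=
    Measure.isProbabilityMeasure_map (h1 e).aemeasurable
  have ht : (ν.map fun ω => X ω e).real {true} = p := by
    rw [map_measureReal_apply (h1 e) (measurableSet_singleton _)]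
    exact h3 e
  have hf : (ν.map fun ω => X ω e).real {false} = 1 - p := by
    have hc : ({false} : Set Bool) = {true}ᶜ := by
      ext b
      cases b <;> simp
    rw [hc, probReal_compl_eq_one_sub (measurableSet_singleton _), ht]
  refine Measure.ext_of_singleton fun b => ?_
  rw [← ENNReal.toReal_eq_toReal_iff' (measure_ne_top _ _) (measure_ne_top _ _),
    ← measureReal_def, ← measureReal_def,
    bernoulliMeasure_real_apply p (measurableSet_singleton _)]
  cases b
  · rw [hf]; simp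
  · rw [ht]; simp

lemma prob_eq {Ω : Type*} [MeasurableSpace Ω] {ν : Measure Ω} {p : unitInterval}
    {X : Ω → Edge n r → Bool} (h : IsRandom ν p X) (P : Set (Edge n r → Bool)) :
    MeasurableSet {ω | X ω ∈ P} ∧ ν.real {ω | X ω ∈ P} = muH P p := by
  have hX : Measurable X := measurable_pi_lambda _ h.2.1
  have hP : MeasurableSet P := (Set.toFinite P).measurableSet
  refine ⟨hX hP, ?_⟩
  unfold muH
  rw [← map_eq h, map_measureReal_apply hX hP]
  rfl

lemma pc_spec {P : Set (Edge n r → Bool)} (hP : Admissible P) {a : ℝ} (h0 : 0 < a) (h1 : a < 1) :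
    ∃ p : unitInterval, 0 < p ∧ p < 1 ∧ pc (muH P) a = p ∧ muH P p = a := by
  obtain ⟨e0, e1, e2⟩ := H601.crit_spec hP.2.1 hP.2.2.1 hP.2.2.2 h0 h1
  refine ⟨⟨critProb a P, e0.le, e1.le⟩, e0, e1, pcH P a, ?_⟩
  rw [muH_eq]
  exact e2

theorem order (hr : 2 ≤ r) : ∃ c C : ℝ, 0 < c ∧ 0 < C ∧
    (∀ n : ℕ, r ≤ n → ∀ ε : ℝ, 0 < ε → ε < 1 / 2 → W r n ε ≤
      C * min 1 (Real.log ((1 - ε) / ε) * Real.log n ^ (-((r : ℝ) / ((r : ℝ) - 1))))) ∧
    ∃ n0 : ℕ, ∀ n : ℕ, n0 ≤ n → ∀ ε : ℝ, 0 < ε → ε < 1 / 2 →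
      c * min 1 (Real.log ((1 - ε) / ε) * Real.log n ^ (-((r : ℝ) / ((r : ℝ) - 1))))
        ≤ W r n ε := by
  obtain ⟨c, C, hc, hC, -, h2, -, n0, h4⟩ := Vale.Agent.Results.P063.UniformWidth.result r hr
  refine ⟨c, C, hc, hC, fun n hn ε e0 e1 => ?_, max n0 r, fun n hn ε e0 e1 => ?_⟩
  · obtain ⟨P, hP, hw⟩ := (greatest hn ε).1
    rw [← hw, wdH]
    exact h2 n hn P hP.1 hP.2.1 hP.2.2.1 hP.2.2.2 ε e0 e1
  · obtain ⟨P, p1, p2, p3, p4, p5⟩ := h4 n (le_of_max_le_left hn) ε e0 e1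
    refine p5.trans ((greatest (le_of_max_le_right hn) ε).2 ⟨P, ⟨p1, p2, p3, p4⟩, wdH P ε⟩)

theorem q2 (hr : 2 ≤ r) {ε : ℝ} (e0 : 0 < ε) (e1 : ε < 1 / 2) : ∃ C : ℝ, ∀ n : ℕ, r ≤ n →
    ∀ P : Set (Edge n r → Bool), Admissible P →
      wd (muH P) ε ≤ C * Real.log n ^ (-((r : ℝ) / ((r : ℝ) - 1))) := by
  obtain ⟨c, C, -, hC, h, -⟩ := order hr
  refine ⟨C * Real.log ((1 - ε) / ε), fun n hn P hP => ?_⟩
  refine ((greatest hn ε).2 ⟨P, hP, rfl⟩).trans ((h n hn ε e0 e1).trans ?_)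
  rw [mul_assoc]
  exact mul_le_mul_of_nonneg_left (min_le_right _ _) hC.le

theorem q1 {ε : ℝ} (e0 : 0 < ε) (e1 : ε < 1 / 2) : ∃ c C : ℝ, 0 < c ∧ 0 < C ∧
    (∀ n : ℕ, 2 ≤ n → (∀ P : Set (SimpleGraph (Fin n)), H868.GraphProperty P →
      wd (muG P) ε ≤ C / Real.log n ^ 2) ∧ W 2 n ε ≤ C / Real.log n ^ 2) ∧
    ∃ n0 : ℕ, ∀ n : ℕ, n0 ≤ n → c / Real.log n ^ 2 ≤ W 2 n ε := by
  obtain ⟨c, C, hc, hC, h, n0, h'⟩ := H868.q1 ε e0 e1
  refine ⟨c, C, hc, hC, fun n hn => ⟨fun P hP => ?_, ?_⟩, max n0 2, fun n hn => ?_⟩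
  · rw [wdG]
    exact h n hn P hP
  · have hw := (greatest hn ε).1
    rw [← widths_eq] at hw
    obtain ⟨P, hP, hw⟩ := hw
    rw [← hw, wdG]
    exact h n hn P hP
  · obtain ⟨P, hP, hw⟩ := h' n (le_of_max_le_left hn)
    refine hw.trans ((greatest (le_of_max_le_right hn) ε).2 ?_)
    rw [← widths_eq]
    exact ⟨P, hP, wdG P ε⟩

end Vale.Agent.P063R
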